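import Vale.Agent.P132.Band
import Vale.Agent.P132.Integral

/-!
P132, short route: almost orthogonality in time of the phases of the bands.
-/

open scoped InnerProductSpace ComplexConjugate
open MeasureTheory Finset

namespace VP132.Short

variable {H : Type} [NormedAddCommGroup H] [InnerProductSpace ℂ H] [CompleteSpace H]

/-- The phase of the band `k` at time `t`. -/
noncomputable def phase (h : ℝ) (k : ℤ) (t : ℝ) : ℂ :=
  Complex.exp (((k * h * t : ℝ) : ℂ) * Complex.I)

theorem norm_phase (h : ℝ) (k : ℤ) (t : ℝ) : ‖phase h k t‖ = 1 :=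
  Complex.norm_exp_ofReal_mul_I _

theorem continuous_phase (h : ℝ) (k : ℤ) : Continuous (phase h k) := by
  unfold phase; fun_prop

theorem norm_kernel_mul_conj_phase {h : ℝ} (hh : 0 < h) (k : ℤ) (t : ℝ) :
    (‖bandKernel 0 h t‖ : ℂ) * conj (phase h k t) = bandKernel (k * h) h t := by
  rw [norm_bandKernel hh.le, bandKernel, phase, ← Complex.exp_conj]
  congr 2
  simp

omit [CompleteSpace H] in
theorem schur {h : ℝ} (hh : 0 < h) (K : Finset ℤ) (z : ℤ → H) :
    ∫ t, ‖bandKernel 0 h t‖ * ‖∑ k ∈ K, phase h k t • z k‖ ^ 2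
      ≤ Bands.gaussTot * ∑ k ∈ K, ‖z k‖ ^ 2 := by
  set g : ℤ → ℤ → ℝ := fun j l => Real.exp (-((j : ℝ) - l) ^ 2) with hg
  set f : ℝ → ℂ := fun t => ∑ j ∈ K, ∑ l ∈ K, (bandKernel 0 h t *
    Complex.exp (((t * ((l - j : ℤ) * h) : ℝ) : ℂ) * Complex.I)) * ⟪z j, z l⟫_ℂ with hf
  have hk0 : ∀ t, bandKernel 0 h t = (‖bandKernel 0 h t‖ : ℂ) := fun t => by
    rw [norm_bandKernel hh.le, bandKernel]; simp
  have hpt : ∀ t, ((‖bandKernel 0 h t‖ * ‖∑ k ∈ K, phase h k t • z k‖ ^ 2 : ℝ) : ℂ) = f t := by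
    intro t
    have e : ((‖∑ k ∈ K, phase h k t • z k‖ ^ 2 : ℝ) : ℂ)
        = ⟪∑ k ∈ K, phase h k t • z k, ∑ k ∈ K, phase h k t • z k⟫_ℂ := by
      rw [inner_self_eq_norm_sq_to_K]; simp
    rw [Complex.ofReal_mul, e, ← hk0, hf, sum_inner, Finset.mul_sum]
    refine Finset.sum_congr rfl fun j _ => ?_
    rw [inner_sum, Finset.mul_sum]
    refine Finset.sum_congr rfl fun l _ => ?_
    rw [inner_smul_left, inner_smul_right, ← mul_assoc (conj _), ← mul_assoc]
    congr 2
    rw [phase, phase, ← Complex.exp_conj, ← Complex.exp_add]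
    congr 1
    simp
    ring
  have hint : ∀ x : ℝ, Integrable fun t =>
      bandKernel 0 h t * Complex.exp (((t * x : ℝ) : ℂ) * Complex.I) := fun x => by
    refine (integrable_norm_bandKernel hh 0).mono'
      ((continuous_bandKernel 0 h).mul (by fun_prop)).aestronglyMeasurable
      (Filter.Eventually.of_forall fun t => ?_)
    rw [norm_mul, Complex.norm_exp_ofReal_mul_I, mul_one]
  have hI : ∫ t, f t = ∑ j ∈ K, ∑ l ∈ K, (g j l : ℂ) * ⟪z j, z l⟫_ℂ := by
    rw [hf, integral_finsetSum _ fun j _ => integrable_finsetSum _ fun l _ => (hint _).mul_const _]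
    refine Finset.sum_congr rfl fun j _ => ?_
    rw [integral_finsetSum _ fun l _ => (hint _).mul_const _]
    refine Finset.sum_congr rfl fun l _ => ?_
    rw [integral_mul_const, integral_bandKernel_exp hh]
    congr 3
    rw [sub_zero, mul_div_assoc, div_self hh.ne', mul_one, Int.cast_sub]
    ring
  have key : ∫ t, ‖bandKernel 0 h t‖ * ‖∑ k ∈ K, phase h k t • z k‖ ^ 2
      = ‖∫ t, f t‖ := by
    rw [← funext hpt, integral_complex_ofReal, Complex.norm_real, Real.norm_of_nonneg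
      (integral_nonneg fun t => by positivity)]
  rw [key, hI]
  refine (norm_sum_le _ _).trans ((Finset.sum_le_sum fun j _ => norm_sum_le _ _).trans ?_)
  have hb : ∀ j l, ‖(g j l : ℂ) * ⟪z j, z l⟫_ℂ‖
      ≤ g j l * ((‖z j‖ ^ 2 + ‖z l‖ ^ 2) / 2) := by
    intro j l
    rw [norm_mul, Complex.norm_real, Real.norm_of_nonneg (Real.exp_pos _).le]
    refine mul_le_mul_of_nonneg_left ((norm_inner_le_norm _ _).trans ?_) (Real.exp_pos _).le
    nlinarith [sq_nonneg (‖z j‖ - ‖z l‖)]
  refine (Finset.sum_le_sum fun j _ => Finset.sum_le_sum fun l _ => hb j l).trans ?_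
  have hsym : ∀ j l, g j l = g l j := fun j l => by
    simp only [hg]; rw [← neg_sub (l : ℝ) j, neg_sq]
  simp only [mul_div_assoc', mul_add, ← Finset.sum_div, Finset.sum_add_distrib]
  rw [Finset.sum_comm (f := fun j l => g j l * ‖z l‖ ^ 2)]
  simp only [fun j l => hsym l j, add_self_div_two, ← Finset.sum_mul]
  rw [Finset.mul_sum]
  exact Finset.sum_le_sum fun j _ =>
    mul_le_mul_of_nonneg_right (Bands.sum_exp_sq_le (j : ℝ) K) (sq_nonneg _)

end VP132.Short
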