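import Vale.Agent.P132.Short.Test

/-!
P132, short route: `x = A v` with `A` the modulus of the adjoint and `v` a contraction; `A` almost
centralizes `ξ` as soon as `J (x* ξ)` is almost a real multiple of `x ξ`.
-/

open scoped InnerProductSpace
open Vale.Agent.P132.Tomita (conjBy Modular)

namespace VP132.Short

variable {H : Type} [NormedAddCommGroup H] [InnerProductSpace ℂ H] [CompleteSpace H]
  {M : VonNeumannAlgebra H} {ξ : H} {R : H →L[ℂ] H} {J : H ≃ₗᵢ⋆[ℂ] H} {U : ℝ → H →L[ℂ] H}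

theorem inner_apply_mul (p q : H →L[ℂ] H) (u v : H) : ⟪p u, q v⟫_ℂ = ⟪u, (star p * q) v⟫_ℂ := by
  rw [mul_apply_eq_comp, ContinuousLinearMap.star_eq_adjoint,
    ContinuousLinearMap.adjoint_inner_right]

theorem cfc_mem {P : H →L[ℂ] H} (hP : P ∈ M) (f : ℝ → ℝ) : cfc f P ∈ M := by
  rw [← VonNeumannAlgebra.commutant_commutant M, VonNeumannAlgebra.mem_commutant_iff]
  intro g hg
  have hc : Commute P g := VonNeumannAlgebra.mem_commutant_iff.1 hg P hP
  exact (hc.cfc_real f).symm.eq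

/-- The decomposition of `x` and the properties used by the tests. -/
theorem exists_decomp (hm : Modular M ξ R J U) {x : H →L[ℂ] H} (hx : x ∈ M) {η : ℝ} (hη : 0 < η) :
    ∃ A ∈ M, ∃ v ∈ M, IsSelfAdjoint A ∧ A * v = x ∧ (∀ z, ‖v z‖ ≤ ‖z‖) ∧
      ‖A ξ‖ ^ 2 = ‖star x ξ‖ ^ 2 + η * ‖ξ‖ ^ 2 ∧
      ∀ l : ℝ, ‖dop J A ξ‖ ^ 2
        ≤ 2 * ‖J (star x ξ) - (l : ℂ) • x ξ‖ ^ 2 + 2 * (η * ‖ξ‖ ^ 2) := by
  set P := x * star x + algebraMap ℝ (H →L[ℂ] H) η with hPdef
  have hPM : P ∈ M := by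
    refine add_mem (mul_mem hx (star_mem hx)) ?_
    rw [Algebra.algebraMap_eq_smul_one, ← Complex.coe_smul]
    exact M.toStarSubalgebra.smul_mem (one_mem M) _
  have hPs : IsSelfAdjoint P := (IsSelfAdjoint.mul_star_self x).add
    (IsSelfAdjoint.algebraMap (H →L[ℂ] H) (IsSelfAdjoint.all η))
  have hspec : ∀ r ∈ spectrum ℝ P, η ≤ r :=
    (algebraMap_le_iff_le_spectrum hPs).1 (le_add_of_nonneg_left (mul_star_self_nonneg x))
  set fA : ℝ → ℝ := fun r => Real.sqrt r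
  set fI : ℝ → ℝ := fun r => (Real.sqrt (max r η))⁻¹
  set fc : ℝ → ℝ := fun r => Real.sqrt (Real.sqrt r)
  have cA : Continuous fA := Real.continuous_sqrt
  have cI : Continuous fI :=
    (Real.continuous_sqrt.comp (continuous_id.max continuous_const)).inv₀
      fun r => (Real.sqrt_pos.2 (lt_max_of_lt_right hη)).ne'
  have cc : Continuous fc := Real.continuous_sqrt.comp Real.continuous_sqrt
  set A := cfc fA P with hA
  set B := cfc fI P with hB
  set c := cfc fc P with hc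
  have hAB : A * B = 1 := by
    rw [hA, hB, ← cfc_mul fA fI P cA.continuousOn cI.continuousOn, ← cfc_one ℝ P]
    refine cfc_congr fun r hr => ?_
    simp only [fA, fI, max_eq_left (hspec r hr), Pi.one_apply]
    exact mul_inv_cancel₀ (Real.sqrt_pos.2 (hη.trans_le (hspec r hr))).ne'
  have hBA : B * A = 1 := by
    rw [← hAB]; exact (cfc_commute_cfc fI fA P).eq
  have hcc : c * c = A := by
    rw [hc, hA, ← cfc_mul fc fc P cc.continuousOn cc.continuousOn]
    exact cfc_congr fun r hr => Real.mul_self_sqrt (Real.sqrt_nonneg r)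
  have hAA : A * A = P := by
    rw [hA, ← cfc_mul fA fA P cA.continuousOn cA.continuousOn]
    conv_rhs => rw [← cfc_id ℝ P hPs]
    exact cfc_congr fun r hr => Real.mul_self_sqrt (hη.le.trans (hspec r hr))
  have hAs : IsSelfAdjoint A := cfc_predicate _ _
  have hBs : IsSelfAdjoint B := cfc_predicate _ _
  have hcs : IsSelfAdjoint c := cfc_predicate _ _
  set v := B * x with hv
  have hvM : v ∈ M := mul_mem (cfc_mem hPM _) hx
  have hAv : A * v = x := by rw [hv, ← mul_assoc, hAB, one_mul]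
  have hsv : ∀ z, ‖star v z‖ ≤ ‖z‖ := by
    intro z
    have h1 : ‖star v z‖ ^ 2 + η * ‖B z‖ ^ 2 = ‖z‖ ^ 2 := by
      have e1 : ⟪star v z, star v z⟫_ℂ + (η : ℂ) * ⟪B z, B z⟫_ℂ = ⟪B z, P (B z)⟫_ℂ := by
        rw [hv, star_mul, hBs.star_eq, mul_apply_eq_comp, inner_apply_mul,
          star_star, hPdef, add_apply, inner_add_right, Algebra.algebraMap_eq_smul_one, smul_apply,
          one_apply_eq_self, ← Complex.coe_smul, inner_smul_right]
      have e2 : ⟪B z, P (B z)⟫_ℂ = ⟪z, z⟫_ℂ := by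
        rw [← hAA, mul_apply_eq_comp, ← mul_apply_eq_comp A B, hAB, one_apply_eq_self,
          ← hAs.star_eq, ContinuousLinearMap.star_eq_adjoint,
          ContinuousLinearMap.adjoint_inner_right, ← mul_apply_eq_comp A B, hAB, one_apply_eq_self]
      rw [e2] at e1
      have := congrArg Complex.re e1
      simpa [inner_self_eq_norm_sq_to_K, ← Complex.ofReal_pow] using this
    nlinarith [norm_nonneg (star v z), norm_nonneg z, sq_nonneg ‖B z‖,
      mul_nonneg hη.le (sq_nonneg ‖B z‖)]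
  have hnv : ∀ z, ‖v z‖ ≤ ‖z‖ := by
    intro z
    have h : ‖star v‖ ≤ 1 := ContinuousLinearMap.opNorm_le_bound _ zero_le_one
      fun w => by rw [one_mul]; exact hsv w
    rw [norm_star] at h
    exact (v.le_opNorm z).trans (mul_le_of_le_one_left (norm_nonneg z) h)
  have hAξ : ‖A ξ‖ ^ 2 = ‖star x ξ‖ ^ 2 + η * ‖ξ‖ ^ 2 := by
    have e1 : ⟪A ξ, A ξ⟫_ℂ = ⟪star x ξ, star x ξ⟫_ℂ + (η : ℂ) * ⟪ξ, ξ⟫_ℂ := by
      rw [inner_apply_mul, inner_apply_mul, hAs.star_eq, hAA, star_star, hPdef, add_apply,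
        inner_add_right, Algebra.algebraMap_eq_smul_one, smul_apply, one_apply_eq_self,
        ← Complex.coe_smul, inner_smul_right]
    have := congrArg Complex.re e1
    simpa [inner_self_eq_norm_sq_to_K, ← Complex.ofReal_pow] using this
  refine ⟨A, cfc_mem hPM _, v, hvM, hAs, hAv, hnv, hAξ, fun l => ?_⟩
  set cj := conjBy J c with hcj
  set Aj := conjBy J A with hAj
  have hcjs : IsSelfAdjoint cj := by rw [IsSelfAdjoint, hcj, Row.star_conjBy J hm.J_J, hcs.star_eq]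
  have hcM : c ∈ M := cfc_mem hPM _
  have hccj : Commute c cj := Row.commute_conjBy hm hcM hcM
  set Z := c (cj ξ) with hZ
  have hAjξ : Aj ξ = cj (cj ξ) := by
    rw [hAj, ← hcc, Row.conjBy_mul J hm.J_J, mul_apply_eq_comp]
  -- the overlap of `A ξ` and `J A ξ`
  have hsym : ∀ {p : H →L[ℂ] H}, IsSelfAdjoint p → ∀ u w, ⟪p u, w⟫_ℂ = ⟪u, p w⟫_ℂ :=
    fun hp u w => hp.isSymmetric u w
  have hswap : ∀ {p r : H →L[ℂ] H}, Commute p r → ∀ u, p (r u) = r (p u) := fun h u => by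
    rw [← mul_apply_eq_comp, h.eq, mul_apply_eq_comp]
  have hα : ⟪A ξ, Aj ξ⟫_ℂ = ⟪Z, Z⟫_ℂ := by
    rw [hAjξ, ← hcc, mul_apply_eq_comp, hsym hcs, hswap hccj, ← hsym hcjs, hZ, ← hswap hccj]
  -- the overlap of `J x* ξ` and `x ξ`
  set q := c * v with hq
  have hqM : q ∈ M := mul_mem hcM hvM
  set qj := conjBy J q with hqj
  have hxξ : x ξ = c (q ξ) := by rw [← hAv, ← hcc, hq]; simp only [mul_apply_eq_comp]
  have hjx : J (star x ξ) = star qj (cj ξ) := by
    rw [hqj, Row.star_conjBy J hm.J_J, hq, star_mul, hcs.star_eq, hcj,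
      ← mul_apply_eq_comp, ← Row.conjBy_mul J hm.J_J, Row.conjBy_apply, hm.J_xi, ← hAv, star_mul,
      hAs.star_eq, mul_assoc, hcc]
  set W := qj (q ξ) with hW
  have hzx : ⟪J (star x ξ), x ξ⟫_ℂ = ⟪Z, W⟫_ℂ := by
    rw [hjx, hxξ, hW, hZ, ContinuousLinearMap.star_eq_adjoint,
      ContinuousLinearMap.adjoint_inner_left, hsym hcs,
      hswap (Row.commute_conjBy hm hcM hqM : Commute c qj)]
  have hWb : ‖W‖ ^ 2 ≤ ‖x ξ‖ ^ 2 := by
    have hQM : star q * q ∈ M := mul_mem (star_mem hqM) hqM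
    have e : ⟪W, W⟫_ℂ = ⟪(star q * q) ξ, conjBy J (star q * q) ξ⟫_ℂ := by
      have h1 : Commute q (conjBy J (star q * q)) :=
        Row.commute_conjBy hm hqM (mul_mem (star_mem hqM) hqM)
      rw [mul_apply_eq_comp (star q) q ξ, ContinuousLinearMap.star_eq_adjoint,
        ContinuousLinearMap.adjoint_inner_left, hW, inner_apply_mul,
        ← ContinuousLinearMap.star_eq_adjoint, hswap h1, hqj, Row.star_conjBy J hm.J_J,
        ← Row.conjBy_mul J hm.J_J]
    have hn : ‖(star q * q) ξ‖ ≤ ‖x ξ‖ := by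
      have : star q * q = star v * x := by
        rw [hq, star_mul, hcs.star_eq, ← hAv, ← hcc]; simp only [mul_assoc]
      rw [this, mul_apply_eq_comp]
      exact hsv _
    have := congrArg Complex.re e
    rw [inner_self_eq_norm_sq_to_K] at this
    calc ‖W‖ ^ 2 = (⟪(star q * q) ξ, conjBy J (star q * q) ξ⟫_ℂ).re := by
          rw [← this]; simp [← Complex.ofReal_pow]
      _ ≤ ‖(star q * q) ξ‖ * ‖(star q * q) ξ‖ := by
          refine (Complex.re_le_norm _).trans ((norm_inner_le_norm _ _).trans ?_)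
          rw [Row.conjBy_apply, hm.J_xi, LinearIsometryEquiv.norm_map]
      _ ≤ _ := by rw [sq]; exact mul_le_mul hn hn (norm_nonneg _) (norm_nonneg _)
  have hWb' : ‖W‖ ≤ ‖x ξ‖ := (pow_le_pow_iff_left₀ (norm_nonneg _) (norm_nonneg _) two_ne_zero).1 hWb
  have hdist : ‖J (star x ξ) - (l : ℂ) • x ξ‖ ^ 2 ≥ ‖star x ξ‖ ^ 2 - ‖Z‖ ^ 2 := by
    have h : |(⟪J (star x ξ), x ξ⟫_ℂ).re| ≤ ‖Z‖ * ‖x ξ‖ := by
      rw [hzx]
      exact (Complex.abs_re_le_norm _).trans ((norm_inner_le_norm _ _).trans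
        (mul_le_mul_of_nonneg_left hWb' (norm_nonneg _)))
    rw [norm_sub_sq (𝕜 := ℂ), LinearIsometryEquiv.norm_map, inner_smul_right, norm_smul,
      Complex.norm_real, Real.norm_eq_abs]
    simp only [RCLike.re_to_complex, Complex.mul_re, Complex.ofReal_re, Complex.ofReal_im, zero_mul,
      sub_zero]
    have h2 : l * (⟪J (star x ξ), x ξ⟫_ℂ).re ≤ |l| * (‖Z‖ * ‖x ξ‖) :=
      (le_abs_self _).trans (by rw [abs_mul]; exact mul_le_mul_of_nonneg_left h (abs_nonneg l))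
    nlinarith [sq_nonneg (|l| * ‖x ξ‖ - ‖Z‖)]
  have hAjn : ‖Aj ξ‖ = ‖A ξ‖ := by
    rw [hAj, Row.conjBy_apply, hm.J_xi, LinearIsometryEquiv.norm_map]
  have e : ‖dop J A ξ‖ ^ 2 = 2 * ‖A ξ‖ ^ 2 - 2 * ‖Z‖ ^ 2 := by
    rw [dop, sub_apply, ← hAj, norm_sub_sq (𝕜 := ℂ), hα, inner_self_eq_norm_sq_to_K, hAjn]
    simp [← Complex.ofReal_pow]
    ring
  rw [e, hAξ]
  linarith

end VP132.Short
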