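import Vale.Agent.P132.Row

/-!
P132, short route: a vector `a ξ` with `a` in the bicentralizer is almost orthogonal to
`∑ (K i - J (K i) J) (y i)` when the self-adjoint `K i ∈ M` almost centralize `ξ`.
-/

open scoped InnerProductSpace
open Vale.Agent.P132.Tomita (conjBy Modular)

namespace VP132.Short

variable {H : Type} [NormedAddCommGroup H] [InnerProductSpace ℂ H] [CompleteSpace H]
  {M : VonNeumannAlgebra H} {ξ : H} {R : H →L[ℂ] H} {J : H ≃ₗᵢ⋆[ℂ] H} {U : ℝ → H →L[ℂ] H}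

/-- The derivation `K - J K J`. -/
noncomputable def dop (J : H ≃ₗᵢ⋆[ℂ] H) (K : H →L[ℂ] H) : H →L[ℂ] H := K - conjBy J K

theorem dop_selfAdjoint (hm : Modular M ξ R J U) {K : H →L[ℂ] H} (hK : IsSelfAdjoint K) :
    IsSelfAdjoint (dop J K) := by
  refine hK.sub ?_
  rw [IsSelfAdjoint, Row.star_conjBy J hm.J_J, hK.star_eq]

theorem test_small (hm : Modular M ξ R J U) {a : H →L[ℂ] H} (ha : HasMod M ξ J a)
    {ε : ℝ} (hε : 0 < ε) (C : ℝ) :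
    ∃ c : ℝ, 0 < c ∧ ∀ (ι : Type) [Fintype ι] (K : ι → H →L[ℂ] H) (y : ι → H),
      (∀ i, K i ∈ M) → (∀ i, IsSelfAdjoint (K i)) →
      ∑ i, ‖dop J (K i) ξ‖ ^ 2 ≤ c → ∑ i, ‖y i‖ ^ 2 ≤ C →
      ‖⟪∑ i, dop J (K i) (y i), a ξ⟫_ℂ‖ ≤ ε * (1 + ‖∑ i, dop J (K i) (y i)‖) := by
  obtain ⟨haM, hmod⟩ := ha
  have hmod' : ∀ e : ℝ, 0 < e → ∃ d : ℝ, 0 < d ∧ ∀ g ∈ Row.adGroup hm,
      ‖g ξ - ξ‖ ≤ d → ‖g (a ξ) - a ξ‖ ≤ e := by
    intro e he
    obtain ⟨δ, hδ, hδ'⟩ := hmod (e / 2) (by linarith)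
    refine ⟨min δ (e / (6 * ‖a‖ + 1)), lt_min hδ (by positivity), ?_⟩
    rintro _ ⟨W, hW, h1, h2, rfl⟩ hg
    obtain ⟨e1, e2⟩ := Row.adGroup_mod hm haM hW h1 h2
    rw [e1, le_min_iff, le_div_iff₀ (by positivity)] at hg
    have := hδ' W hW h1 h2 hg.1
    nlinarith [norm_nonneg (W ξ - rho J W ξ), norm_nonneg a]
  obtain ⟨c₀, hc₀, hwalk⟩ := Walk.walk_lemma (Row.adGroup hm) (Row.adGroup_isometry hm) ξ (a ξ)
    hmod' (e := ε) hε
  set s := 256 * (|C| + 1) * (‖a ξ‖ ^ 2 + 1) / ε ^ 2 with hs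
  have hs0 : 0 < s := by positivity
  refine ⟨c₀ / s, by positivity, fun ι _ K y hKM hKs hdef hy => ?_⟩
  obtain ⟨η', hη', hE⟩ := hwalk ι K (fun i => conjBy J (K i)) hKs
    (fun i => by rw [IsSelfAdjoint, Row.star_conjBy J hm.J_J, (hKs i).star_eq])
    (fun i => Row.commute_conjBy hm (hKM i) (hKM i))
    (fun i t => by
      refine ⟨Walk.cay (K i) t, Row.cay_mem M (hKs i) (hKM i) t, ?_, ?_, ?_⟩
      · rw [Walk.star_cay (hKs i), Walk.cay_neg_mul (hKs i)]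
      · rw [Walk.star_cay (hKs i)]
        simpa using Walk.cay_neg_mul (hKs i) (-t)
      · rw [Row.conjBy_cay J hm.J_J (hKs i)])
    s hs0 (by rw [le_div_iff₀ hs0] at hdef; simpa [dop, mul_comm] using hdef)
  set w := ∑ i, dop J (K i) (y i) with hwdef
  have h1 : ‖⟪w, η'⟫_ℂ‖ ≤ ε := by
    have e : ⟪w, η'⟫_ℂ = ∑ i, ⟪y i, dop J (K i) η'⟫_ℂ := by
      rw [hwdef, sum_inner]
      exact Finset.sum_congr rfl fun i _ => (dop_selfAdjoint hm (hKs i)).isSymmetric _ _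
    rw [e]
    refine (norm_sum_le _ _).trans ((Finset.sum_le_sum fun i _ => norm_inner_le_norm _ _).trans ?_)
    refine (Real.sum_mul_le_sqrt_mul_sqrt _ _ _).trans ?_
    have hE' : ∑ i, ‖dop J (K i) η'‖ ^ 2 ≤ 64 * ‖a ξ‖ ^ 2 / s := by
      rw [le_div_iff₀ hs0, mul_comm]; exact hE
    rw [← Real.sqrt_mul (Finset.sum_nonneg fun i _ => sq_nonneg _)]
    refine Real.sqrt_le_iff.2 ⟨by positivity, ?_⟩
    calc (∑ i, ‖y i‖ ^ 2) * ∑ i, ‖dop J (K i) η'‖ ^ 2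
        ≤ (|C| + 1) * (64 * (‖a ξ‖ ^ 2 + 1) / s) := by
          refine mul_le_mul (hy.trans (by linarith [le_abs_self C])) (hE'.trans ?_)
            (Finset.sum_nonneg fun i _ => sq_nonneg _) (by positivity)
          gcongr
          linarith
      _ = (ε / 2) ^ 2 := by rw [hs]; field_simp; ring
      _ ≤ ε ^ 2 := by gcongr; linarith
  have h2 : ‖⟪w, a ξ - η'⟫_ℂ‖ ≤ ε * ‖w‖ := by
    refine (norm_inner_le_norm _ _).trans ?_
    rw [mul_comm ε, norm_sub_rev]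
    exact mul_le_mul_of_nonneg_left hη' (norm_nonneg _)
  calc ‖⟪w, a ξ⟫_ℂ‖ = ‖⟪w, η'⟫_ℂ + ⟪w, a ξ - η'⟫_ℂ‖ := by rw [← inner_add_right, add_sub_cancel]
    _ ≤ _ := (norm_add_le _ _).trans (by linarith)

end VP132.Short
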